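import Mathlib.Logic.Function.Iterate
import Mathlib.Logic.Relation
import Mathlib.Logic.Equiv.Defs
import Mathlib.Data.Quot

/-!
Sequential colimits of sets of classes.
-/

namespace Vale.Agent.P251CP

/-- a self map which preserves an equivalence relation -/
structure Sys (T : Type) where
  /-- the map -/
  σ : T → T
  /-- the relation -/
  H : T → T → Prop
  eqv : Equivalence H
  map : ∀ {x y}, H x y → H (σ x) (σ y)

namespace Sys

variable {T T' : Type} (P : Sys T) (P' : Sys T')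

/-- stable equivalence -/
def E (x y : T) : Prop := ∃ k l, P.H (P.σ^[k] x) (P.σ^[l] y)

theorem it {x y : T} (h : P.H x y) (k : ℕ) : P.H (P.σ^[k] x) (P.σ^[k] y) := by
  induction k with
  | zero => exact h
  | succ k ih => rw [Function.iterate_succ_apply', Function.iterate_succ_apply']; exact P.map ih

theorem eqvE : Equivalence P.E where
  refl x := ⟨0, 0, P.eqv.refl x⟩
  symm := fun ⟨k, l, h⟩ => ⟨l, k, P.eqv.symm h⟩
  trans := fun ⟨k, l, h⟩ ⟨m, n, h'⟩ => ⟨m + k, l + n, by
    have a := P.it h m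
    have b := P.it h' l
    rw [← Function.iterate_add_apply, ← Function.iterate_add_apply] at a b
    rw [Nat.add_comm m l] at a
    exact P.eqv.trans a b⟩

/-- `R` generates the stable equivalence -/
structure Gen (R : T → T → Prop) : Prop where
  le : ∀ x y, R x y → P.H x y ∨ y = P.σ x
  ht : ∀ x y, P.H x y → R x y
  st : ∀ x, R x (P.σ x)

variable {P P'} {R : T → T → Prop} {R' : T' → T' → Prop}

theorem Gen.mk_it (h : P.Gen R) (x : T) (k : ℕ) : Quot.mk R (P.σ^[k] x) = Quot.mk R x := by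
  induction k with
  | zero => rfl
  | succ k ih => rw [Function.iterate_succ_apply', ← ih]; exact (Quot.sound (h.st _)).symm

theorem Gen.eq (h : P.Gen R) (x y : T) : Quot.mk R x = Quot.mk R y ↔ P.E x y := by
  constructor
  · intro e0
    have e := Quot.eqvGen_exact e0
    clear e0
    induction e with
    | rel a b r =>
      obtain r | rfl := h.le a b r
      · exact ⟨0, 0, r⟩
      · exact ⟨1, 0, P.eqv.refl _⟩
    | refl a => exact P.eqvE.refl a
    | symm _ _ _ ih => exact P.eqvE.symm ih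
    | trans _ _ _ _ _ a b => exact P.eqvE.trans a b
  · rintro ⟨k, l, e⟩
    rw [← h.mk_it x k, ← h.mk_it y l]
    exact Quot.sound (h.ht _ _ e)

theorem Gen.equiv_iff (h : P.Gen R) (h' : P'.Gen R') (φ : T → T')
    (h1 : ∀ x, φ (P.σ x) = P'.σ (φ x)) (h2 : ∀ x y, P.H x y → P'.H (φ x) (φ y)) :
    (∃ e : Quot R ≃ Quot R', ∀ x, e (Quot.mk R x) = Quot.mk R' (φ x)) ↔
      (∀ y, ∃ l x, P'.H (φ x) (P'.σ^[l] y)) ∧ ∀ x x', P'.H (φ x) (φ x') → P.E x x' := by
  have h3 : ∀ k x, φ (P.σ^[k] x) = P'.σ^[k] (φ x) := fun k x => by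
    induction k with
    | zero => rfl
    | succ k ih => rw [Function.iterate_succ_apply', Function.iterate_succ_apply', h1, ih]
  constructor
  · rintro ⟨e, he⟩
    refine ⟨fun y => ?_, fun x x' a => (h.eq _ _).1 (e.injective ?_)⟩
    · obtain ⟨z, hz⟩ := e.surjective (Quot.mk R' y)
      obtain ⟨x, rfl⟩ := Quot.exists_rep z
      obtain ⟨k, l, a⟩ := (h'.eq _ _).1 ((he x).symm.trans hz)
      exact ⟨l, P.σ^[k] x, h3 k x ▸ a⟩
    · rw [he, he]
      exact Quot.sound (h'.ht _ _ a)
  · rintro ⟨a, b⟩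
    let F : Quot R → Quot R' := Quot.lift (fun x => Quot.mk R' (φ x)) fun x y r => by
      obtain r | rfl := h.le x y r
      · exact Quot.sound (h'.ht _ _ (h2 _ _ r))
      · rw [h1]; exact Quot.sound (h'.st _)
    refine ⟨Equiv.ofBijective F ⟨fun z z' e => ?_, fun z => ?_⟩, fun _ => rfl⟩
    · obtain ⟨x, rfl⟩ := Quot.exists_rep z
      obtain ⟨x', rfl⟩ := Quot.exists_rep z'
      obtain ⟨k, l, c⟩ := (h'.eq _ _).1 e
      rw [← h3, ← h3] at c
      rw [← h.mk_it x k, ← h.mk_it x' l]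
      exact (h.eq _ _).2 (b _ _ c)
    · obtain ⟨y, rfl⟩ := Quot.exists_rep z
      obtain ⟨l, x, c⟩ := a y
      exact ⟨Quot.mk R x, (Quot.sound (h'.ht _ _ c)).trans (h'.mk_it y l)⟩

end Sys

end Vale.Agent.P251CP
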