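import Vale.Agent.P251CP.St
import Vale.Agent.P251CP.Col
import Vale.Agent.P251CJ.Pair
import Vale.Agent.P251C.Defs

/-!
The `π_*`-isomorphisms of orthogonal spectra are the stable equivalences.
-/

open CategoryTheory MonoidalCategory Topology OnePoint Matrix

namespace Vale.Agent.P251CP

open Vale.Agent.P251.H
open Vale.Agent.P251CA Vale.Agent.P251CA.CF StabInput
open Vale.Agent.P251.G (LC)
open Vale.Agent.P251.G.LC (smash RR)
open Vale.Agent.P251C (OSp Emb Pm PiRel piIso)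
open Vale.Agent.P251.St (Rn)
open Sp0 (smp euc)

theorem cons_dot {n : ℕ} (t s : ℝ) (x y : Fin n → ℝ) :
    (Fin.cons t x : Fin (n + 1) → ℝ) ⬝ᵥ (Fin.cons s y : Fin (n + 1) → ℝ) = t * s + x ⬝ᵥ y := by
  simp [dotProduct, Fin.sum_univ_succ]

/-- `(t, x) ↦ Fin.cons t x` -/
def cns (n : ℕ) : Sp0.gen ⊗ euc n ≅ euc (n + 1) :=
  Sp0.isoMk (P251CL.sphSucc n)
    (.of (fun p : ℝ × (Fin n → ℝ) => (Fin.cons p.1 p.2 : Fin (n + 1) → ℝ)) (fun _ => rfl)
      fun _ _ => cons_dot _ _ _ _)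
    (.of (fun x : Fin (n + 1) → ℝ => ((x 0, Fin.tail x) : ℝ × (Fin n → ℝ))) (fun _ => rfl)
      fun x y => (cons_dot _ _ _ _).symm.trans
        (congrArg₂ dotProduct (Fin.cons_self_tail x) (Fin.cons_self_tail y)))

/-- elements -/
abbrev El (A : CF) (j n : ℕ) : Type := PQ.ofLC (euc j).s ⟶ A.obj (euc n)

/-- one suspension -/
def sg {A : CF} {j n : ℕ} (g : El A j n) : El A (j + 1) (n + 1) :=
  lc (cns j).inv.hom ≫ st Sp0.gen g ≫ A.map (cns n).hom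

/-- iterated suspension -/
def sgk {A : CF} {j n : ℕ} (g : El A j n) : (k : ℕ) → El A (j + k) (n + k)
  | 0 => g
  | k + 1 => sg (sgk g k)

/-- the iterated coordinates -/
def cnk (n : ℕ) : (k : ℕ) → (gpow k ⊗ euc n ≅ euc (n + k))
  | 0 => λ_ (euc n)
  | k + 1 => α_ Sp0.gen (gpow k) (euc n) ≪≫ whiskerLeftIso Sp0.gen (cnk n k) ≪≫ cns (n + k)

theorem lc_comp {a b c : Sp0} (p : a ⟶ b) (q : b ⟶ c) : lc (p ≫ q).hom = lc p.hom ≫ lc q.hom := rfl

theorem lc_id (a : Sp0) : lc (𝟙 a : a ⟶ a).hom = 𝟙 _ := rfl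

theorem sgk_eq {A : CF} {j n : ℕ} (g : El A j n) (k : ℕ) :
    sgk g k = lc (cnk j k).inv.hom ≫ st (gpow k) g ≫ A.map (cnk n k).hom := by
  induction k with
  | zero =>
    refine Eq.trans ?_ (congrArg (fun z => lc (λ_ (euc j)).inv.hom ≫ z ≫ A.map (λ_ (euc n)).hom)
      (st_one g)).symm
    refine PQ.hom_ext' fun y => Eq.symm ((A.act_inv_hom (λ_ (euc n)) _).trans ?_)
    exact congrArg (fun q : euc j ⟶ euc j => PQ.app g (LC.app q.hom y)) (λ_ (euc j)).inv_hom_id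
  | succ k ih =>
    have e1 := st_tr (c := Sp0.gen) (st (gpow k) g) (cnk j k).inv.hom (cnk n k).hom (Iso.refl _)
    have e2 := st_st (c := Sp0.gen) (c' := gpow k) g
    refine (congrArg sg ih).trans ((congrArg (fun z => lc (cns (j + k)).inv.hom ≫ z ≫
      A.map (cns (n + k)).hom) e1).trans (Eq.trans ?_ (congrArg (fun z =>
        lc (cnk j (k + 1)).inv.hom ≫ z ≫ A.map (cnk n (k + 1)).hom) e2).symm))
    have a1 : (cnk j (k + 1)).inv ≫ (α_ Sp0.gen (gpow k) (euc j)).hom =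
        (cns (j + k)).inv ≫ (𝟙 Sp0.gen ⊗ₘ (cnk j k).inv) :=
      ((α_ Sp0.gen (gpow k) (euc j)).comp_inv_eq.1 rfl).symm.trans
        (congrArg ((cns (j + k)).inv ≫ ·) (id_tensorHom _ _).symm)
    have a2 : (α_ Sp0.gen (gpow k) (euc n)).inv ≫ (cnk n (k + 1)).hom =
        (𝟙 Sp0.gen ⊗ₘ (cnk n k).hom) ≫ (cns (n + k)).hom :=
      (Iso.inv_hom_id_assoc _ (Sp0.gen ◁ (cnk n k).hom ≫ (cns (n + k)).hom)).trans (by simp)
    refine PQ.hom_ext' fun y => ((A.act_comp _ _ _).symm.trans ?_).trans (A.act_comp _ _ _)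
    refine Eq.trans ?_ (congrArg (A.act · _) a2.symm)
    exact congrArg (fun q : euc (j + (k + 1)) ⟶ Sp0.gen ⊗ gpow k ⊗ euc j => A.act _
      (PQ.app (st Sp0.gen (st (gpow k) g)) (LC.app q.hom y))) a1.symm

theorem ht_tr {A : CF} {a a' b b' : Sp0} (p : a ≅ a') (w : b ≅ b')
    (g g' : PQ.ofLC a.s ⟶ A.obj b) :
    Ht (lc p.inv.hom ≫ g ≫ A.map w.hom) (lc p.inv.hom ≫ g' ≫ A.map w.hom) ↔ Ht g g' := by
  refine ⟨fun h => ?_, fun h => (h.post _).pre _⟩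
  have e : ∀ g : PQ.ofLC a.s ⟶ A.obj b,
      lc p.hom.hom ≫ (lc p.inv.hom ≫ g ≫ A.map w.hom) ≫ A.map w.inv = g := fun g =>
    PQ.hom_ext' fun y => (A.act_hom_inv w _).trans
      (congrArg (fun q : a ⟶ a => PQ.app g (LC.app q.hom y)) p.hom_inv_id)
  rw [← e g, ← e g']
  exact (h.post _).pre _

theorem piW_iff_sgk {A B : CF} (f : A ⟶ B) : piW (cells P251.I.FCP) f ↔
    (∀ j n (g : El B j n), ∃ (k : ℕ) (h : El A (j + k) (n + k)), Ht (h ≫ ap f _) (sgk g k)) ∧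
      ∀ j n (g g' : El A j n), Ht (g ≫ ap f _) (g' ≫ ap f _) → ∃ k, Ht (sgk g k) (sgk g' k) := by
  refine (piW_iff_el cf_euc cf_gpow f).trans (and_congr ⟨fun h j n g => ?_, fun h => ?_⟩
    ⟨fun h j n g g' e => ?_, fun h => ?_⟩)
  · obtain ⟨_, ⟨k, rfl⟩, x, e⟩ := h _ _ ⟨j, rfl⟩ ⟨n, rfl⟩ g
    refine ⟨k, lc (cnk j k).inv.hom ≫ x ≫ A.map (cnk n k).hom, ?_⟩
    rw [sgk_eq]
    exact (congrArg (lc (cnk j k).inv.hom ≫ ·) (map_ap (f := f) x (cnk n k).hom)) ▸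
      (ht_tr (cnk j k) (cnk n k) _ _).2 e
  · rintro _ _ ⟨j, rfl⟩ ⟨n, rfl⟩ g
    obtain ⟨k, x, e⟩ := h j n g
    refine ⟨_, ⟨k, rfl⟩, lc (cnk j k).hom.hom ≫ x ≫ A.map (cnk n k).inv, ?_⟩
    refine (ht_tr (cnk j k) (cnk n k) _ _).1 ?_
    rw [← sgk_eq]
    refine Eq.subst (motive := fun z => Ht z (sgk g k)) (PQ.hom_ext' fun y => ?_) e
    refine Eq.symm (((fn_act f _ _).symm.trans (congrArg (fn f) (A.act_inv_hom _ _))).trans ?_)
    exact congrArg (fun q : euc (j + k) ⟶ euc (j + k) => fn f (PQ.app x (LC.app q.hom y)))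
      (cnk j k).inv_hom_id
  · obtain ⟨_, ⟨k, rfl⟩, e⟩ := h _ _ ⟨j, rfl⟩ ⟨n, rfl⟩ g g' e
    refine ⟨k, ?_⟩
    rw [sgk_eq, sgk_eq]
    exact (ht_tr (cnk j k) (cnk n k) _ _).2 e
  · rintro _ _ ⟨j, rfl⟩ ⟨n, rfl⟩ g g' e
    obtain ⟨k, e⟩ := h j n g g' e
    rw [sgk_eq, sgk_eq] at e
    exact ⟨_, ⟨k, rfl⟩, (ht_tr (cnk j k) (cnk n k) _ _).1 e⟩

/-- `A` is the orthogonal spectrum `X` -/
structure View (X : OSp) (A : CF) where
  /-- the points -/
  e : ∀ n, X.sp n ≃ OnePoint (A.obj (euc n))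
  e_pt : ∀ n, e n (X.pt n) = ∞
  plot : ∀ n (K : CH) (g : K → X.sp n),
    (A.obj (euc n)).plot K (fun k => e n (g k)) ↔ Continuous g
  act : ∀ m n (f : OnePoint (Emb m n)) (x : X.sp m),
    A.act (P251CJ.eh f) (e m x) = e n (X.act f x)

namespace View

variable {X Y : OSp} {A B : CF} (V : View X A) (W : View Y B) {j n : ℕ}

/-- based maps as elements -/
def el : Pm (Rn j) X n ≃ El A j n where
  toFun g := ofPl (K := (euc j).s) (fun y => V.e n (g.1 y)) ((congrArg (V.e n) g.2).trans (V.e_pt n))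
    ((V.plot n (CH.of (OnePoint (Fin j → ℝ))) g.1).2 g.1.continuous)
  invFun h := ⟨⟨fun y => (V.e n).symm (PQ.app h y),
    (V.plot n (CH.of (OnePoint (Fin j → ℝ))) _).1 (by
      simp only [Equiv.apply_symm_apply]
      exact PQ.plot_app_ofLC (X := (euc j).s) h)⟩,
    (V.e n).symm_apply_eq.2 ((PQ.app_infty h).trans (V.e_pt n).symm)⟩
  left_inv g := Subtype.ext (ContinuousMap.ext fun y => (V.e n).symm_apply_apply _)
  right_inv h := PQ.hom_ext' fun y => (V.e n).apply_symm_apply _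

theorem app_el (g : Pm (Rn j) X n) (y : OnePoint (Fin j → ℝ)) :
    PQ.app (V.el g) y = V.e n (g.1 y) := rfl

theorem ht_el (g g' : Pm (Rn j) X n) : Ht (V.el g) (V.el g') ↔ g.1.HomotopicRel g'.1 {∞} := by
  constructor
  · rintro ⟨H, h1, h2, h3, h4⟩
    refine ⟨⟨⟨⟨fun p => (V.e n).symm (H p),
      (V.plot n (CH.of (unitInterval × OnePoint (Fin j → ℝ))) _).1 (by
        simp only [Equiv.apply_symm_apply]
        exact h1)⟩, fun y => (V.e n).symm_apply_eq.2 (h3 y),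
      fun y => (V.e n).symm_apply_eq.2 (h4 y)⟩, ?_⟩⟩
    rintro t _ rfl
    exact (V.e n).symm_apply_eq.2 ((h2 t).trans ((congrArg (V.e n) g.2).trans (V.e_pt n)).symm)
  · rintro ⟨H⟩
    exact ⟨fun p => V.e n (H p), (V.plot n (CH.of (unitInterval × OnePoint (Fin j → ℝ))) H).2
      H.continuous, fun t => (congrArg (V.e n) ((H.eq_fst t rfl).trans g.2)).trans (V.e_pt n),
      fun y => congrArg (V.e n) (H.apply_zero y), fun y => congrArg (V.e n) (H.apply_one y)⟩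

theorem app_sg (g : Pm (Rn j) X n) (t : ℝ) (p : Emb n (n + 1))
    (hp : ∀ s, P251C.ap p s = Fin.cons t s) (y : Fin j → ℝ) :
    PQ.app (sg (V.el g)) (OnePoint.some (X := Fin (j + 1) → ℝ) (Fin.cons t y)) =
      V.e (n + 1) (X.act (.some p) (g.1 (.some y))) := by
  refine (congrArg (A.act (cns n).hom) (app_st (c := Sp0.gen) (V.el g) (OnePoint.some (X := ℝ) t)
    (OnePoint.some (X := Fin j → ℝ) y))).trans ?_
  refine ((A.act_comp _ _ _).symm.trans (congrArg (A.act · _) ?_)).trans (V.act _ _ _ _)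
  refine Sp0.app_ext fun x => ?_
  refine (congrArg (LC.app (cns n).hom.hom) (app_ins (c := Sp0.gen) (OnePoint.some (X := ℝ) t)
    (euc n) (OnePoint.some (X := Fin n → ℝ) x))).trans ?_
  exact congrArg (OnePoint.some (X := Fin (n + 1) → ℝ)) (hp x).symm

/-- the system of the homotopy groups -/
def sys : Sys (Σ j n, Pm (Rn j) X n) where
  σ x := ⟨x.1 + 1, x.2.1 + 1, V.el.symm (sg (V.el x.2.2))⟩
  H x y := ∃ (j n : ℕ) (g g' : Pm (Rn j) X n), x = ⟨j, n, g⟩ ∧ y = ⟨j, n, g'⟩ ∧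
    g.1.HomotopicRel g'.1 {∞}
  eqv :=
    { refl := fun x => ⟨x.1, x.2.1, x.2.2, x.2.2, rfl, rfl, .refl _⟩
      symm := fun ⟨j, n, g, g', a, b, c⟩ => ⟨j, n, g', g, b, a, c.symm⟩
      trans := by
        rintro _ _ _ ⟨j, n, g, g', rfl, rfl, c⟩ ⟨j', n', h, h', a, rfl, d⟩
        cases a
        exact ⟨j, n, g, h', rfl, rfl, c.trans d⟩ }
  map := by
    rintro _ _ ⟨j, n, g, g', rfl, rfl, c⟩
    refine ⟨_, _, _, _, rfl, rfl, (V.ht_el _ _).1 ?_⟩
    rw [Equiv.apply_symm_apply, Equiv.apply_symm_apply]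
    have hu := cr_unit (PQ.ofLC (euc j).s) (euc n)
    obtain ⟨x, hx⟩ := (hu A).2 (V.el g)
    obtain ⟨x', hx'⟩ := (hu A).2 (V.el g')
    obtain ⟨v, h3, h4⟩ := hu.step
    dsimp only at hx hx'
    have e := (h3.mh _ _).1 (((hu.mh x x').2 (by
      rw [hx, hx']; exact (V.ht_el g g').2 c)).comp_left (lamU CF ▷ _ ≫ (λ_ _).hom))
    refine (ht_tr (cns j) (cns n) _ _).2 ?_
    rw [← hx, ← hx', st_comp, st_comp, ← h4]
    exact e

theorem H_iff (g g' : Pm (Rn j) X n) :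
    V.sys.H ⟨j, n, g⟩ ⟨j, n, g'⟩ ↔ Ht (V.el g) (V.el g') := by
  refine ⟨?_, fun h => ⟨j, n, g, g', rfl, rfl, (V.ht_el _ _).1 h⟩⟩
  rintro ⟨j', n', h, h', a, b, c⟩
  cases a
  cases b
  exact (V.ht_el _ _).2 c

theorem it_eq (g : Pm (Rn j) X n) (k : ℕ) :
    V.sys.σ^[k] ⟨j, n, g⟩ = ⟨j + k, n + k, V.el.symm (sgk (V.el g) k)⟩ := by
  induction k with
  | zero => exact congrArg (fun z => (⟨j, n, z⟩ : Σ j n, Pm (Rn j) X n)) (V.el.symm_apply_apply g).symm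
  | succ k ih =>
    rw [Function.iterate_succ_apply', ih]
    exact congrArg (fun z => (⟨j + (k + 1), n + (k + 1), V.el.symm (sg z)⟩ : Σ j n, Pm (Rn j) X n))
      (V.el.apply_symm_apply _)

theorem gen : V.sys.Gen (PiRel X) where
  le x y r := by
    cases r with
    | htpy f g h => exact .inl ⟨_, _, f, g, rfl, rfl, h⟩
    | @stab j n f g h =>
      refine .inr (congrArg (fun z => (⟨j + 1, n + 1, z⟩ : Σ j n, Pm (Rn j) X n))
        (V.el.eq_symm_apply.2 (PQ.hom_ext fun y => ?_)))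
      obtain ⟨p, hp⟩ := P251CJ.exists_ap (m := n) (fun s => (Fin.cons (y 0) s : Fin (n + 1) → ℝ))
        (y 0 * y 0) fun _ _ => (cons_dot _ _ _ _).trans (add_comm _ _)
      have e1 := V.app_sg f (y 0) p hp (Fin.tail y)
      have e2 := congrArg (V.e (n + 1)) (h (y 0) p hp (Fin.tail y))
      exact Eq.subst (motive := fun z : Fin (j + 1) → ℝ => V.e (n + 1) (g.1 (.some z)) =
        PQ.app (sg (V.el f)) (OnePoint.some (X := Fin (j + 1) → ℝ) z)) (Fin.cons_self_tail y)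
        (e2.trans e1.symm)
  ht := by
    rintro _ _ ⟨j, n, g, g', rfl, rfl, c⟩
    exact .htpy g g' c
  st x := .stab x.2.2 _ fun t p hp y => (V.e _).symm_apply_eq.2 (V.app_sg x.2.2 t p hp y)

end View

/-- composition with a morphism -/
def pm {X Y : OSp} (f : X ⟶ Y) {j n : ℕ} (g : Pm (Rn j) X n) : Pm (Rn j) Y n :=
  ⟨(f.app n).comp g.1, (congrArg (f.app n) g.2).trans (f.pt n)⟩

theorem sg_comp {A B : CF} {j n : ℕ} (g : El A j n) (F : A ⟶ B) :
    sg (g ≫ ap F _) = sg g ≫ ap F _ := by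
  rw [sg, st_comp]
  exact congrArg (lc (cns j).inv.hom ≫ ·) (map_ap (f := F) (st Sp0.gen g) (cns n).hom).symm

/-- **The `π_*`-isomorphisms are the stable equivalences.** -/
theorem piIso_iff {X Y : OSp} {A B : CF} (V : View X A) (W : View Y B) (f : X ⟶ Y) (F : A ⟶ B)
    (h : ∀ n x, fn F (V.e n x) = W.e n (f.app n x)) :
    piIso f ↔ piW (cells P251.I.FCP) F := by
  have h0 : ∀ j n (g : Pm (Rn j) X n), W.el (pm f g) = V.el g ≫ ap F _ := fun j n g =>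
    PQ.hom_ext' fun y => (h n _).symm
  let φ : (Σ j n, Pm (Rn j) X n) → Σ j n, Pm (Rn j) Y n := fun x => ⟨x.1, x.2.1, pm f x.2.2⟩
  have h1 : piIso f ↔ ∃ e : Quot (PiRel X) ≃ Quot (PiRel Y),
      ∀ x, e (Quot.mk _ x) = Quot.mk _ (φ x) := exists_congr fun e =>
    ⟨fun a x => a x.1 x.2.1 x.2.2 _ fun _ => rfl, fun a j n g g' b =>
      (Subtype.ext (ContinuousMap.ext b) : g' = pm f g) ▸ a ⟨j, n, g⟩⟩
  have h2 : ∀ x, φ (V.sys.σ x) = W.sys.σ (φ x) := fun x => by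
    refine congrArg (fun z => (⟨x.1 + 1, x.2.1 + 1, z⟩ : Σ j n, Pm (Rn j) Y n))
      (W.el.eq_symm_apply.2 ?_)
    exact ((h0 _ _ _).trans (congrArg (· ≫ ap F _) (V.el.apply_symm_apply _))).trans
      ((sg_comp _ F).symm.trans (congrArg sg (h0 _ _ _).symm))
  have h3 : ∀ x y, V.sys.H x y → W.sys.H (φ x) (φ y) := by
    rintro _ _ ⟨j, n, g, g', rfl, rfl, c⟩
    refine (W.H_iff _ _).2 ?_
    rw [h0, h0]
    exact ((V.ht_el _ _).2 c).post _
  rw [h1, V.gen.equiv_iff W.gen φ h2 h3, piW_iff_sgk]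
  · refine and_congr ⟨fun a j n g => ?_, fun a y => ?_⟩ ⟨fun a j n g g' b => ?_, fun a x x' b => ?_⟩
    · obtain ⟨k, ⟨j', n', x⟩, b⟩ := a ⟨j, n, W.el.symm g⟩
      rw [W.it_eq] at b
      obtain ⟨rfl, rfl⟩ : j' = j + k ∧ n' = n + k := by
        obtain ⟨_, _, _, _, c, d, -⟩ := b
        exact ⟨(congrArg (·.1) c).trans (congrArg (·.1) d).symm,
          (congrArg (·.2.1) c).trans (congrArg (·.2.1) d).symm⟩
      have c := (W.H_iff _ _).1 b
      rw [h0, Equiv.apply_symm_apply, Equiv.apply_symm_apply] at c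
      exact ⟨k, _, c⟩
    · obtain ⟨j, n, g⟩ := y
      obtain ⟨k, x, b⟩ := a j n (W.el g)
      refine ⟨k, ⟨_, _, V.el.symm x⟩, ?_⟩
      rw [W.it_eq]
      refine (W.H_iff _ _).2 ?_
      rw [h0, Equiv.apply_symm_apply, Equiv.apply_symm_apply]
      exact b
    · obtain ⟨k, l, c⟩ := a ⟨j, n, V.el.symm g⟩ ⟨j, n, V.el.symm g'⟩ ((W.H_iff _ _).2 (by
        rw [h0, h0, Equiv.apply_symm_apply, Equiv.apply_symm_apply]
        exact b))
      rw [V.it_eq, V.it_eq] at c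
      obtain rfl : k = l := by
        obtain ⟨_, _, _, _, c, d, -⟩ := c
        exact Nat.add_left_cancel ((congrArg (·.1) c).trans (congrArg (·.1) d).symm)
      have d := (V.H_iff _ _).1 c
      simp only [Equiv.apply_symm_apply] at d
      exact ⟨k, d⟩
    · obtain ⟨j, n, g⟩ := x
      obtain ⟨j', n', g'⟩ := x'
      obtain ⟨rfl, rfl⟩ : j = j' ∧ n = n' := by
        obtain ⟨_, _, _, _, c, d, -⟩ := b
        exact ⟨(congrArg (·.1) c).trans (congrArg (·.1) d).symm,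
          (congrArg (·.2.1) c).trans (congrArg (·.2.1) d).symm⟩
      have c := (W.H_iff _ _).1 b
      rw [h0, h0] at c
      obtain ⟨k, d⟩ := a j n _ _ c
      refine ⟨k, k, ?_⟩
      rw [V.it_eq, V.it_eq]
      refine (V.H_iff _ _).2 ?_
      rw [Equiv.apply_symm_apply, Equiv.apply_symm_apply]
      exact d

end Vale.Agent.P251CP
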