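import Vale.Agent.P251CP.Lit
import Vale.Agent.P251CV.R
import Vale.Agent.P251CR.Tr
import Vale.Agent.P251CM.Model

/-!
The `π_*`-isomorphisms of orthogonal spectra are the stable equivalences of the reflective model.
-/

open CategoryTheory

namespace Vale.Agent.P251CP

open Vale.Agent.P251.H
open Vale.Agent.P251CA Vale.Agent.P251CA.CF StabInput
open Vale.Agent.P251C (OSp piIso)
open Vale.Agent.P251CV (qE)
open Vale.Agent.P251CR (RM)

/-- an orthogonal spectrum as a continuous functor -/
noncomputable def vq (X : OSp) : View X (P251CI.q.obj X) :=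
  ⟨qE.e X, qE.e_pt X, qE.plot X, qE.act X⟩

theorem piIso_iff_q {X Y : OSp} (f : X ⟶ Y) :
    piIso f ↔ piW (cells P251.I.FCP) (P251CI.q.map f) :=
  piIso_iff (vq X) (vq Y) f _ (qE.map f)

/-- **The `π_*`-isomorphisms are the stable equivalences of the model.** -/
theorem pi {X Y : RM P251CV.R} (f : X ⟶ Y) :
    piIso (X := X) (Y := Y) f ↔ P251CM.WW (RM P251CV.R) f :=
  (piIso_iff_q (X := X) (Y := Y) f).trans (RM.piW_iff P251CV.R P251.I.FCP f).symm

/-- the same, for any functor `E` to the model that does not change the underlying morphism -/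
theorem pi_of (E : OSp ⥤ RM P251CV.R) (e : E ⋙ RM.q P251CV.R ≅ P251CI.q) {X Y : OSp}
    (f : X ⟶ Y) : piIso f ↔ P251CM.WW (RM P251CV.R) (E.map f) :=
  (piIso_iff_q f).trans (((piW (cells P251.I.FCP)).arrow_mk_iso_iff
    (Arrow.isoMk (e.app X) (e.app Y) (e.hom.naturality f).symm :
      Arrow.mk ((RM.q P251CV.R).map (E.map f)) ≅ Arrow.mk (P251CI.q.map f))).symm.trans
    (RM.piW_iff P251CV.R P251.I.FCP (E.map f)).symm)

end Vale.Agent.P251CP
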