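import Vale.Agent.P251CP.Rep
import Vale.Agent.P251CA.Crd
import Vale.Agent.P251CL.Sph

/-!
Stable equivalences of orthogonal spectra, elementwise.
-/

open CategoryTheory MonoidalCategory Topology OnePoint

namespace Vale.Agent.P251CP

open Vale.Agent.P251.H
open Vale.Agent.P251CA Vale.Agent.P251CA.CF StabInput
open Vale.Agent.P251.G (LC)
open Vale.Agent.P251.G.LC (smash smash_infty_left smash_infty_right RR II)
open Sp0 (smp)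

/-- the map `x ↦ (t, x)` -/
def ins {c : Sp0} (t : OnePoint c.s) (b : Sp0) : b ⟶ c ⊗ b := (λ_ b).inv ≫ Sp0.pt t ▷ b

theorem app_ins {c : Sp0} (t : OnePoint c.s) (b : Sp0) (x : OnePoint b.s) :
    LC.app (ins t b).hom x = smp t x :=
  (congrArg (LC.app (Sp0.pt t ▷ b).hom) (Sp0.app_leftUnitor_inv x)).trans
    (Sp0.app_whiskerRight_smp _ _ _)

theorem ins_infty (c b : Sp0) : ins (∞ : OnePoint c.s) b = 0 := by
  rw [ins, Sp0.pt_infty, Sp0.zero_whiskerRight, Limits.comp_zero]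

/-- the stabilisation `(t, y) ↦ (x ↦ (t, x)) · g y` -/
def st {K : LC} {X : CF} {b : Sp0} (c : Sp0) (g : PQ.ofLC K ⟶ X.obj b) :
    PQ.ofLC (c.s ⊗ K) ⟶ X.obj (c ⊗ b) :=
  (PQ.μLC c.s K).inv ≫ PQ.lift₂ (X := PQ.ofLC c.s) (Y := PQ.ofLC K)
    (fun t y => X.act (ins t b) (PQ.app g y))
    (fun y => by rw [ins_infty, act_zero]) (fun t => by rw [PQ.app_infty, act_infty])
    fun _ _ _ h h' => X.act_plot (Sp0.plot_comp (Sp0.plot_const _ _)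
      (Sp0.plot_whiskerRight (Sp0.plot_pt h) _)) (PQ.app_plot g h')

section

variable {K K' : LC} {X Y E : CF} {a b b' c c' : Sp0}

theorem app_st (g : PQ.ofLC K ⟶ X.obj b) (t : OnePoint c.s) (y : OnePoint K) :
    PQ.app (st c g) (smash t y) = X.act (ins t b) (PQ.app g y) :=
  PQ.unsmash_smash (fun t y => X.act (ins t b) (PQ.app g y))
    (fun y => by rw [ins_infty, act_zero]) (fun t => by rw [PQ.app_infty, act_infty]) t y

theorem ext₂ {L : LC} {Z : PQ} {g g' : PQ.ofLC (L ⊗ K) ⟶ Z}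
    (h : ∀ t y, PQ.app g (smash t y) = PQ.app g' (smash t y)) : g = g' :=
  PQ.hom_ext' fun z => by
    obtain ⟨⟨t, y⟩, rfl⟩ := Sp0.smash_surjective (X := L) (Y := K) z
    exact h t y

theorem st_comp (g : PQ.ofLC K ⟶ X.obj b) (f : X ⟶ Y) :
    st c (g ≫ ap f b) = st c g ≫ ap f (c ⊗ b) :=
  ext₂ fun t y => (app_st _ t y).trans
    ((fn_act f _ _).symm.trans (congrArg (fn f) (app_st g t y).symm))

theorem st_tr (g : PQ.ofLC K ⟶ X.obj b) (p : K' ⟶ K) (w : b ⟶ b') (e : c ≅ c') :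
    st c' (lc p ≫ g ≫ X.map w) = lc (e.inv.hom ⊗ₘ p) ≫ st c g ≫ X.map (e.hom ⊗ₘ w) :=
  ext₂ fun t y => by
    refine (app_st _ t y).trans (Eq.symm ?_)
    refine (congrArg (fun z => X.act (e.hom ⊗ₘ w) (PQ.app (st c g) z))
      (LC.app_tensorHom_smash e.inv.hom p t y)).trans ?_
    rw [app_st, ← act_comp]
    refine Eq.trans (congrArg (X.act · _) (Sp0.app_ext fun x => ?_)) (X.act_comp w _ _)
    refine (congrArg (LC.app (e.hom ⊗ₘ w).hom) (app_ins _ b x)).trans ?_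
    rw [Sp0.app_tensorHom_smp, ← LC.app_comp, ← Sp0.comp_hom, e.inv_hom_id]
    exact (app_ins t b' _).symm

theorem st_st (g : PQ.ofLC K ⟶ X.obj b) : st (c ⊗ c') g =
    lc (α_ c.s c'.s K).hom ≫ st c (st c' g) ≫ X.map (α_ c c' b).inv :=
  ext₂ fun z y => by
    obtain ⟨⟨t, s⟩, rfl⟩ := Sp0.smash_surjective (X := c.s) (Y := c'.s) z
    refine (app_st (c := c ⊗ c') _ _ y).trans (Eq.symm ?_)
    refine (congrArg (fun z => X.act (α_ c c' b).inv (PQ.app (st c (st c' g)) z))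
      (LC.app_associator_smash c.s c'.s K t s y)).trans ?_
    rw [app_st, app_st, ← act_comp, ← act_comp]
    refine congrArg (X.act · _) (Sp0.app_ext fun x => ?_)
    refine (congrArg (fun z => LC.app (α_ c c' b).inv.hom (LC.app (ins t (c' ⊗ b)).hom z))
      (app_ins s b x)).trans ?_
    rw [app_ins, Sp0.app_associator_inv_smp]
    exact (app_ins (c := c ⊗ c') _ b x).symm

theorem st_one (g : PQ.ofLC K ⟶ X.obj b) :
    st (𝟙_ Sp0) g = lc (λ_ K).hom ≫ g ≫ X.map (λ_ b).inv :=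
  ext₂ fun t y => by
    refine (app_st _ t y).trans ?_
    induction t using OnePoint.rec with
    | infty => rw [ins_infty, act_zero]; exact (PQ.app_infty _).symm
    | coe t =>
      have : ins (c := 𝟙_ Sp0) (t : OnePoint (𝟙_ Sp0).s) b = (λ_ b).inv :=
        Sp0.app_ext fun x => (app_ins _ b x).trans (Sp0.app_leftUnitor_inv _).symm
      rw [this]
      exact congrArg (fun z => X.act (λ_ b).inv (PQ.app g z)) (LC.app_leftUnitor_smash K y).symm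

theorem Cr.tr {u : PQ.ofLC K ⟶ E.obj b} (h : Cr u) (p : K' ≅ K) (w : b ≅ b') :
    Cr (lc p.hom ≫ u ≫ E.map w.hom) := (h.act w).pre (PQ.LCPQ.mapIso p)

theorem Cr.step {u : PQ.ofLC K ⟶ E.obj b} (h : Cr u) :
    ∃ v : PQ.ofLC (Sp0.gen.s ⊗ K) ⟶ (U CF ⊗ E).obj (Sp0.gen ⊗ b), Cr v ∧
      v ≫ ap (lamU CF ▷ E ≫ (λ_ E).hom) _ = st Sp0.gen u := by
  obtain ⟨v, h1, h2⟩ := h.F (PQ.ofLC RR)
  obtain ⟨v', h3, h4⟩ := h1.rep Sp0.gen
  refine ⟨_, (h3.iso (α_ _ _ E).symm).pre (PQ.μLC RR K).symm, ext₂ fun t y => ?_⟩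
  refine Eq.trans ?_ (app_st u t y).symm
  refine (congrArg (fun z => fn (lamC ▷ E ≫ (λ_ E).hom) (fn (α_ (CF.rep Sp0.gen) (jC.obj RR) E).inv z))
    ((h4 _).trans (congrArg (tm (pr (𝟙 Sp0.gen))) (h2 t y)))).trans ?_
  refine (congrArg (fun z => fn (lamC ▷ E ≫ (λ_ E).hom) (fn (α_ (CF.rep Sp0.gen) (jC.obj RR) E).inv z))
    (act_tm_right (λ_ b).hom (pr (𝟙 Sp0.gen)) (tm (jm (K := RR) t pu) (PQ.app u y))).symm).trans ?_
  have e := lamC_tm (𝟙 Sp0.gen) t (pu : OnePoint (𝟙_ Sp0).s)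
  rw [fn_act, associator_inv_tm, fn_act, fn_act, fn_comp, whiskerRight_tm]
  refine (congrArg (fun z => E.act (Sp0.gen ◁ (λ_ b).hom) (E.act (α_ Sp0.gen (𝟙_ Sp0) b).hom
    (fn (λ_ E).hom (tm z (PQ.app u y))))) e).trans ?_
  rw [leftUnitor_tm, ← act_comp, ← act_comp]
  refine congrArg (E.act · _) (Sp0.app_ext fun x => ?_)
  refine (congrArg (fun z => LC.app (Sp0.gen ◁ (λ_ b).hom).hom (LC.app (α_ Sp0.gen (𝟙_ Sp0) b).hom.hom z))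
    (app_ins (c := Sp0.gen ⊗ 𝟙_ Sp0) (smp (a := Sp0.gen) t pu) b x)).trans ?_
  rw [Sp0.app_associator_smp, Sp0.app_whiskerLeft_smp, Sp0.app_leftUnitor_smp]
  exact (app_ins _ b x).symm

theorem Cr.up {u : PQ.ofLC K ⟶ E.obj b} (h : Cr u) (k : ℕ) :
    ∃ v : PQ.ofLC ((gpow k).s ⊗ K) ⟶ (up k E).obj (gpow k ⊗ b), Cr v ∧
      v ≫ ap (tkM k E) _ = st (gpow k) u := by
  induction k with
  | zero => exact ⟨st (𝟙_ Sp0) u, st_one u ▸ h.tr (λ_ K) (λ_ b).symm, rfl⟩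
  | succ k ih =>
    obtain ⟨v, h1, h2⟩ := ih
    obtain ⟨v', h3, h4⟩ := h1.step
    refine ⟨_, h3.tr (α_ Sp0.gen.s (gpow k).s K) (α_ Sp0.gen (gpow k) b).symm, ?_⟩
    refine Eq.trans ?_ (st_st (c := Sp0.gen) (c' := gpow k) u).symm
    rw [← h2, st_comp, ← h4]
    exact PQ.hom_ext' fun z => fn_act (tkM (k + 1) E) _ _

end

/-- every class of `Y` stably comes from `X` -/
def Onto (S T : Sp0 → Prop) {X Y : CF} (f : X ⟶ Y) : Prop :=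
  ∀ a b, S a → S b → ∀ g : PQ.ofLC a.s ⟶ Y.obj b, ∃ c, T c ∧
    ∃ h : PQ.ofLC (c.s ⊗ a.s) ⟶ X.obj (c ⊗ b), Ht (h ≫ ap f _) (st c g)

/-- classes of `X` which become equal in `Y` are stably equal -/
def Inj (S T : Sp0 → Prop) {X Y : CF} (f : X ⟶ Y) : Prop :=
  ∀ a b, S a → S b → ∀ g g' : PQ.ofLC a.s ⟶ X.obj b, Ht (g ≫ ap f _) (g' ≫ ap f _) →
    ∃ c, T c ∧ Ht (st c g) (st c g')

/-- the class meets every isomorphism class -/
def Cf (S : Sp0 → Prop) : Prop := ∀ a, ∃ a', S a' ∧ Nonempty (a ≅ a')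

section

variable {S S' T T' : Sp0 → Prop} {X Y : CF} {f : X ⟶ Y}

theorem st_back {a a' b b' c c' : Sp0} (p : a ≅ a') (w : b ≅ b') (e : c ≅ c')
    (g : PQ.ofLC a.s ⟶ X.obj b) : st c' g = lc (e.inv.hom ⊗ₘ p.hom.hom) ≫
      st c (lc p.inv.hom ≫ g ≫ X.map w.hom) ≫ X.map (e.hom ⊗ₘ w.inv) := by
  rw [← st_tr]
  refine congrArg (st c') (PQ.hom_ext' fun y => Eq.symm ?_)
  refine (X.act_hom_inv w _).trans (congrArg (PQ.app g) ?_)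
  exact congrArg (fun q : a ⟶ a => LC.app q.hom y) p.hom_inv_id

theorem map_ap {Z : PQ} {b b' : Sp0} (g : Z ⟶ X.obj b) (w : b ⟶ b') :
    (g ≫ X.map w) ≫ ap f b' = (g ≫ ap f b) ≫ Y.map w :=
  PQ.hom_ext' fun _ => fn_act f w _

theorem Onto.cf (h : Onto S T f) (hS : Cf S) (hS' : Cf T') : Onto S' T' f := fun a b _ _ g => by
  obtain ⟨a', ha, ⟨p⟩⟩ := hS a
  obtain ⟨b', hb, ⟨w⟩⟩ := hS b
  obtain ⟨c, -, x, hx⟩ := h a' b' ha hb (lc p.inv.hom ≫ g ≫ Y.map w.hom)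
  obtain ⟨c', hc, ⟨e⟩⟩ := hS' c
  refine ⟨c', hc, lc (e.inv.hom ⊗ₘ p.hom.hom) ≫ x ≫ X.map (e.hom ⊗ₘ w.inv), ?_⟩
  rw [st_back p w e, Category.assoc, map_ap]
  exact (hx.post _).pre _

theorem Inj.cf (h : Inj S T f) (hS : Cf S) (hS' : Cf T') : Inj S' T' f :=
    fun a b _ _ g g' hg => by
  obtain ⟨a', ha, ⟨p⟩⟩ := hS a
  obtain ⟨b', hb, ⟨w⟩⟩ := hS b
  obtain ⟨c, -, hx⟩ := h a' b' ha hb (lc p.inv.hom ≫ g ≫ X.map w.hom)
    (lc p.inv.hom ≫ g' ≫ X.map w.hom) (by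
      rw [Category.assoc, Category.assoc (lc _), map_ap, map_ap]
      exact (hg.post _).pre _)
  obtain ⟨c', hc, ⟨e⟩⟩ := hS' c
  refine ⟨c', hc, ?_⟩
  rw [st_back p w e g, st_back p w e g']
  exact (hx.post _).pre _

end

theorem dim_gpow (n : ℕ) : (gpow n).dim = n := by
  induction n with
  | zero => rfl
  | succ n ih => exact (congrArg (1 + ·) ih).trans (add_comm 1 n)

theorem cf_gpow : Cf fun a => ∃ n, a = gpow n := fun a =>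
  ⟨_, ⟨a.dim, rfl⟩, ⟨a.toEuc ≪≫ eqToIso (congrArg Sp0.euc (dim_gpow _).symm) ≪≫ (Sp0.toEuc _).symm⟩⟩

theorem cf_euc : Cf fun a => ∃ n, a = Sp0.euc n := fun a => ⟨_, ⟨a.dim, rfl⟩, ⟨a.toEuc⟩⟩

theorem cf_top : Cf fun _ => True := fun a => ⟨a, trivial, ⟨Iso.refl a⟩⟩

theorem isSph_iff (K : LC) : IsSph K ↔ ∃ m, K = (gpow m).s := by
  constructor
  · intro h
    induction h with
    | unit => exact ⟨0, rfl⟩
    | susp _ ih => obtain ⟨m, rfl⟩ := ih; exact ⟨m + 1, rfl⟩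
  · rintro ⟨m, rfl⟩
    induction m with
    | zero => exact .unit
    | succ m ih => exact ih.susp

theorem cells_iff (A : CF) : cells IsSph A ↔
    ∃ (m n : ℕ) (u : PQ.ofLC (gpow m).s ⟶ A.obj (gpow n)), Cr u := by
  constructor
  · rintro ⟨n, K, hK, ⟨e⟩⟩
    obtain ⟨m, rfl⟩ := (isSph_iff K).1 hK
    exact ⟨m, n, _, ((cr_unit _ (gpow n)).iso (cellIso n (PQ.ofLC (gpow m).s)).symm).iso e.symm⟩
  · rintro ⟨m, n, u, h⟩
    have := h.isIso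
    exact ⟨n, _, (isSph_iff _).2 ⟨m, rfl⟩,
      ⟨(asIso (smulYo u)).symm ≪≫ (cellIso n (PQ.ofLC (gpow m).s)).symm⟩⟩

theorem piW_iff_gpow {X Y : CF} (f : X ⟶ Y) : piW (cells IsSph) f ↔
    Onto (fun a => ∃ n, a = gpow n) (fun a => ∃ n, a = gpow n) f ∧
      Inj (fun a => ∃ n, a = gpow n) (fun a => ∃ n, a = gpow n) f := by
  refine (piW_iff_tk _ f).trans (and_congr ⟨fun h => ?_, fun h A hA y => ?_⟩
    ⟨fun h => ?_, fun h A hA x x' e => ?_⟩)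
  · rintro _ _ ⟨m, rfl⟩ ⟨n, rfl⟩ g
    have hu := cr_unit (PQ.ofLC (gpow m).s) (gpow n)
    obtain ⟨y, rfl⟩ := (hu Y).2 g
    obtain ⟨k, x, e⟩ := h _ ((cells_iff _).2 ⟨m, n, _, hu⟩) y
    obtain ⟨v, h1, h2⟩ := hu.up k
    refine ⟨_, ⟨k, rfl⟩, v ≫ ap x _, ?_⟩
    rw [st_comp, ← h2]
    exact (h1.mh _ _).1 e
  · obtain ⟨m, n, u, hu⟩ := (cells_iff A).1 hA
    obtain ⟨_, ⟨k, rfl⟩, g, e⟩ := h _ _ ⟨m, rfl⟩ ⟨n, rfl⟩ (u ≫ ap y _)
    obtain ⟨v, h1, h2⟩ := hu.up k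
    obtain ⟨x, rfl⟩ := (h1 X).2 g
    rw [st_comp, ← h2] at e
    exact ⟨k, x, (h1.mh _ _).2 e⟩
  · rintro _ _ ⟨m, rfl⟩ ⟨n, rfl⟩ g g' e
    have hu := cr_unit (PQ.ofLC (gpow m).s) (gpow n)
    obtain ⟨x, rfl⟩ := (hu X).2 g
    obtain ⟨x', rfl⟩ := (hu X).2 g'
    obtain ⟨k, e⟩ := h _ ((cells_iff _).2 ⟨m, n, _, hu⟩) x x' ((hu.mh _ _).2 e)
    obtain ⟨v, h1, h2⟩ := hu.up k
    refine ⟨_, ⟨k, rfl⟩, ?_⟩
    rw [st_comp, st_comp, ← h2]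
    exact (h1.mh _ _).1 e
  · obtain ⟨m, n, u, hu⟩ := (cells_iff A).1 hA
    obtain ⟨_, ⟨k, rfl⟩, e⟩ := h _ _ ⟨m, rfl⟩ ⟨n, rfl⟩ (u ≫ ap x _) (u ≫ ap x' _) ((hu.mh _ _).1 e)
    obtain ⟨v, h1, h2⟩ := hu.up k
    rw [st_comp, st_comp, ← h2] at e
    exact ⟨k, (h1.mh _ _).2 e⟩

/-- **Stable equivalences, elementwise.** -/
theorem piW_iff_el {S T : Sp0 → Prop} (hS : Cf S) (hT : Cf T) {X Y : CF} (f : X ⟶ Y) :
    piW (cells P251.I.FCP) f ↔ Onto S T f ∧ Inj S T f :=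
  ((P251CL.piW_sph_iff f).symm.trans (piW_iff_gpow f)).trans
    ⟨fun h => ⟨h.1.cf cf_gpow hT, h.2.cf cf_gpow hT⟩, fun h => ⟨h.1.cf hS cf_gpow, h.2.cf hS cf_gpow⟩⟩

end Vale.Agent.P251CP
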