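import Vale.Agent.P251.H.PhiM

/-!
Stable equivalences, described by representatives.
-/

open CategoryTheory MonoidalCategory Limits

namespace Vale.Agent.P251CP

open Vale.Agent.P251.H StabInput

universe v u

section

variable {K : Type u} [Category.{v} K] (P : CoPt K)

theorem exists_add (A : K) (k j : ℕ) : ∃ e : P.pw (k + j) A ≅ P.pw j (P.pw k A),
    e.hom ≫ P.tk j (P.pw k A) = P.tr (Nat.le_add_right k j) A := by
  induction j with
  | zero => exact ⟨Iso.refl _, by simp⟩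
  | succ j ih =>
    obtain ⟨e, he⟩ := ih
    refine ⟨P.F.mapIso e, ?_⟩
    have h := P.tr_succ_right (Nat.le_add_right k j) A
    refine Eq.trans ?_ h.symm
    rw [P.tk_succ, ← he]
    exact P.nat_assoc e.hom _

theorem W_iff (GG : ObjectProperty K) (hG : ∀ A k, GG A → GG (P.pw k A)) {X Y : K} (f : X ⟶ Y) :
    P.W GG f ↔
      (∀ A, GG A → ∀ y : A ⟶ Y, ∃ (k : ℕ) (x : P.pw k A ⟶ X), x ≫ f = P.tk k A ≫ y) ∧
      ∀ A, GG A → ∀ x x' : A ⟶ X, x ≫ f = x' ≫ f → ∃ k, P.tk k A ≫ x = P.tk k A ≫ x' := by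
  constructor
  · intro h
    refine ⟨fun A hA y => ?_, fun A hA x x' e => ?_⟩
    · obtain ⟨z, hz⟩ := (h A hA).2 (P.cl 0 y)
      obtain ⟨k, x, rfl⟩ := CoPt.cl_surj z
      obtain ⟨m, h1, h2, e⟩ := (CoPt.cl_eq_iff _ _).1 ((P.map_cl A f k x).symm.trans hz)
      exact ⟨m, P.tr h1 A ≫ x, (Category.assoc _ _ _).trans e⟩
    · obtain ⟨m, h1, e⟩ := (CoPt.cl_eq_iff' (k := 0) x x').1
        ((h A hA).1 (by rw [CoPt.map_cl, CoPt.map_cl, e]))
      exact ⟨m, e⟩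
  · rintro ⟨h1, h2⟩ A hA
    constructor
    · intro z z' e
      obtain ⟨k, x, x', rfl, rfl⟩ := CoPt.cl_surj₂ z z'
      rw [CoPt.map_cl, CoPt.map_cl, CoPt.cl_eq_iff'] at e
      obtain ⟨m, h, e⟩ := e
      obtain ⟨j, hj⟩ := h2 _ (hG A m hA) (P.tr h A ≫ x) (P.tr h A ≫ x') (by simpa using e)
      obtain ⟨i, hi⟩ := exists_add P A m j
      rw [CoPt.cl_eq_iff']
      refine ⟨m + j, h.trans (Nat.le_add_right m j), ?_⟩
      rw [← P.tr_tr h (Nat.le_add_right m j), ← hi]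
      simp only [Category.assoc]
      rw [hj]
    · intro z
      obtain ⟨k, y, rfl⟩ := CoPt.cl_surj z
      obtain ⟨j, x, e⟩ := h1 _ (hG A k hA) y
      obtain ⟨i, hi⟩ := exists_add P A k j
      refine ⟨P.cl (k + j) (i.hom ≫ x), ?_⟩
      rw [CoPt.map_cl, Category.assoc, e, ← Category.assoc, hi, CoPt.cl_tr]

end

variable {M : Type u} [Category.{v} M] [MonoidalCategory M] [SymmetricCategory M]
    [MonoidalClosed M] [HasZeroMorphisms M] [HasColimitsOfSize.{0, 0} M] [StabInput M]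

/-- `U ⊗ ⋯ ⊗ U ⊗ A` -/
abbrev up (k : ℕ) (A : M) : M := ((stab M).coPt.pw k ((HM.proj M).obj A)).obj

theorem proj_tk (k : ℕ) (A : M) {Y : M} (y : A ⟶ Y) : (HM.proj M).map (tkM k A ≫ y) =
    (stab M).coPt.tk k ((HM.proj M).obj A) ≫ (HM.proj M).map y := by
  rw [← proj_tkM]
  rfl

theorem piW_iff_tk (GG : ObjectProperty M) [IsTest GG] {X Y : M} (f : X ⟶ Y) :
    piW GG f ↔
      (∀ A, GG A → ∀ y : A ⟶ Y, ∃ (k : ℕ) (x : up k A ⟶ X), MHtpy (x ≫ f) (tkM k A ≫ y)) ∧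
      ∀ A, GG A → ∀ x x' : A ⟶ X, MHtpy (x ≫ f) (x' ≫ f) →
        ∃ k, MHtpy (tkM k A ≫ x) (tkM k A ≫ x') := by
  refine (W_iff (stab M).coPt (fun A => GG A.obj) (fun A k h => IsTest.pw GG h k)
    ((HM.proj M).map f)).trans (and_congr ⟨fun h A hA y => ?_, fun h A hA y => ?_⟩
      ⟨fun h A hA x x' e => ?_, fun h A hA x x' e => ?_⟩)
  · obtain ⟨k, x, e⟩ := h ⟨A⟩ hA ((HM.proj M).map y)
    obtain ⟨x, rfl⟩ := HM.proj_map_surjective x
    exact ⟨k, x, (HM.proj_map_eq_iff _ _).1 (e.trans (proj_tk k A y).symm)⟩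
  · obtain ⟨y, rfl⟩ := HM.proj_map_surjective y
    obtain ⟨k, x, e⟩ := h A.obj hA y
    exact ⟨k, (HM.proj M).map x, (HM.sound e).trans (proj_tk k A.obj y)⟩
  · obtain ⟨k, e⟩ := h ⟨A⟩ hA ((HM.proj M).map x) ((HM.proj M).map x') (HM.sound e)
    exact ⟨k, (HM.proj_map_eq_iff _ _).1 ((proj_tk k A x).trans (e.trans (proj_tk k A x').symm))⟩
  · obtain ⟨x, rfl⟩ := HM.proj_map_surjective x
    obtain ⟨x', rfl⟩ := HM.proj_map_surjective x'
    obtain ⟨k, e⟩ := h A.obj hA x x' ((HM.proj_map_eq_iff _ _).1 e)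
    exact ⟨k, (proj_tk k A.obj x).symm.trans ((HM.sound e).trans (proj_tk k A.obj x'))⟩

end Vale.Agent.P251CP
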