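import Vale.Agent.P251CA.Base
import Vale.Agent.P251CP.Abs

/-!
Universal elements of orthogonal spectra, homotopy and stabilisation of elements.
-/

open CategoryTheory MonoidalCategory Topology OnePoint

namespace Vale.Agent.P251CP

open Vale.Agent.P251.H
open Vale.Agent.P251CA Vale.Agent.P251CA.CF StabInput
open Vale.Agent.P251.G (LC)
open Vale.Agent.P251.G.LC (smash smash_infty_left smash_infty_right RR II)
open Sp0 (smp)

/-- the component of a morphism -/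
abbrev ap {X Y : CF} (f : X ⟶ Y) (a : Sp0) : X.obj a ⟶ Y.obj a := CF.Hom.app f a

/-- `u` is a universal element of `E`. -/
def Cr {A : PQ} {E : CF} {a : Sp0} (u : A ⟶ E.obj a) : Prop :=
  ∀ X : CF, Function.Bijective fun f : E ⟶ X => u ≫ ap f a

section

variable {A : PQ} {E E' : CF} {a a' : Sp0} {u : A ⟶ E.obj a}

theorem cr_unit (A : PQ) (a : Sp0) : Cr (E := smul A (rep a)) (smulUnit A a) :=
  fun X => (smulYoEquiv A X a).bijective

theorem Cr.iso (h : Cr u) (e : E ≅ E') : Cr (u ≫ ap e.hom a) := fun X =>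
  (h X).comp (e.homFromEquiv (Z := X)).symm.bijective

theorem Cr.pre (h : Cr u) {B : PQ} (e : B ≅ A) : Cr (e.hom ≫ u) := fun X =>
  (e.homFromEquiv (Z := X.obj a)).symm.bijective.comp (h X)

theorem Cr.act (h : Cr u) (w : a ≅ a') : Cr (u ≫ E.map w.hom) := fun X => by
  have e : (fun f : E ⟶ X => (u ≫ E.map w.hom) ≫ ap f a') =
      (fun g => g ≫ (X.toFunctor.mapIso w).hom) ∘ fun f : E ⟶ X => u ≫ ap f a := funext fun f => by
    rw [Category.assoc, CF.Hom.naturality f]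
    rfl
  rw [e]
  exact ((X.toFunctor.mapIso w).homToEquiv (Z := A)).bijective.comp (h X)

theorem Cr.of_eq {v : A ⟶ E.obj a} (h : Cr u) (e : ∀ k, PQ.app v k = PQ.app u k) : Cr v :=
  (PQ.hom_ext' e : v = u) ▸ h

theorem Cr.isIso (h : Cr u) : IsIso (smulYo u) := by
  obtain ⟨g, hg⟩ := (h _).2 (smulUnit A a)
  have e : smulUnit A a ≫ ap (smulYo u) a = u := (smulYoEquiv A E a).right_inv u
  refine ⟨g, (cr_unit A a _).1 ?_, (h _).1 ?_⟩
  · exact ((Category.assoc _ _ _).symm.trans (congrArg (· ≫ ap g a) e)).trans hg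
  · exact ((Category.assoc _ _ _).symm.trans (congrArg (· ≫ ap (smulYo u) a) hg)).trans e

theorem Cr.rep (h : Cr u) (b : Sp0) : ∃ v : A ⟶ (rep b ⊗ E).obj (b ⊗ a), Cr v ∧
    ∀ k, PQ.app v k = tm (pr (𝟙 b)) (PQ.app u k) :=
  ⟨u ≫ ap (repCurry (𝟙 (CF.rep b ⊗ E))) a, fun X =>
    (h ((sh b).obj X)).comp (repEquiv b E X).bijective, fun _ => rfl⟩

theorem Cr.smul (h : Cr u) (B : PQ) : Cr (E := smul B E) (B ◁ u) := by
  have := h.isIso
  let e1 : CF.smul (B ⊗ A) (CF.rep a) ≅ CF.smul B (CF.smul A (CF.rep a)) :=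
    isoMk (fun c => α_ B A _) fun w => associator_naturality_right B A _
  let e2 : CF.smul B (CF.smul A (CF.rep a)) ≅ CF.smul B E :=
    ⟨smulMap (𝟙 B) (smulYo u), smulMap (𝟙 B) (inv (smulYo u)),
      by rw [← smulMap_comp, IsIso.hom_inv_id, Category.comp_id, smulMap_id],
      by rw [← smulMap_comp, IsIso.inv_hom_id, Category.comp_id, smulMap_id]⟩
  refine (((cr_unit (B ⊗ A) a).iso e1).iso e2).of_eq fun k => ?_
  obtain ⟨x, y, rfl⟩ := PQ.kp_surjective k
  refine (PQ.app_whiskerLeft_smash B u x y).trans (Eq.symm ?_)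
  refine (congrArg (fn e2.hom) (PQ.app_associator_smash B A _ x y (pr (𝟙 a)))).trans ?_
  refine (fn_smulMap (𝟙 B) (smulYo u) x (sm y (pr (𝟙 a)))).trans ?_
  rw [fn_smulYo, act_id]
  rfl

theorem Cr.F (h : Cr u) (B : PQ) : ∃ v : B ⊗ A ⟶ (F.obj B ⊗ E).obj a, Cr v ∧
    ∀ x y, PQ.app v (smash x y) = (F.obj B ⊗ E).act (λ_ a).hom (tm (fm x pu) (PQ.app u y)) :=
  ⟨_, (h.smul B).iso (FTensor B E).symm, fun x y =>
    (congrArg (fn (FTensor B E).inv) (PQ.app_whiskerLeft_smash B u x y)).trans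
      (fn_FTensor_inv x (PQ.app u y))⟩

end

/-- a pointed plot as a morphism -/
def ofPl {K : LC} {Z : PQ} (g : OnePoint K → OnePoint Z) (h0 : g ∞ = ∞)
    (h : Z.plot (CH.of (OnePoint K)) g) : PQ.ofLC K ⟶ Z :=
  ⟨g, h0, fun L f hf => Z.plot_comp (K := CH.of (OnePoint K)) (L := L) f g hf h⟩

/-- pointed homotopy -/
def Ht {K : LC} {Z : PQ} (g g' : PQ.ofLC K ⟶ Z) : Prop :=
  ∃ H : unitInterval × OnePoint K → OnePoint Z, Z.plot (CH.of (unitInterval × OnePoint K)) H ∧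
    (∀ t, H (t, ∞) = ∞) ∧ (∀ y, H (0, y) = PQ.app g y) ∧ ∀ y, H (1, y) = PQ.app g' y

theorem Ht.post {K : LC} {Z Z' : PQ} {g g' : PQ.ofLC K ⟶ Z} (h : Ht g g') (p : Z ⟶ Z') :
    Ht (g ≫ p) (g' ≫ p) := by
  obtain ⟨H, h1, h2, h3, h4⟩ := h
  exact ⟨fun x => PQ.app p (H x), PQ.app_plot p h1,
    fun t => (congrArg (PQ.app p) (h2 t)).trans (PQ.app_infty p),
    fun y => congrArg (PQ.app p) (h3 y), fun y => congrArg (PQ.app p) (h4 y)⟩

/-- a map of spaces -/
abbrev lc {K K' : LC} (p : K' ⟶ K) : PQ.ofLC K' ⟶ PQ.ofLC K := PQ.LCPQ.map p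

theorem Ht.pre {K K' : LC} {Z : PQ} {g g' : PQ.ofLC K ⟶ Z} (h : Ht g g') (p : K' ⟶ K) :
    Ht (lc p ≫ g) (lc p ≫ g') := by
  obtain ⟨H, h1, h2, h3, h4⟩ := h
  exact ⟨fun x => H (x.1, LC.app p x.2), Z.plot_comp (K := CH.of (unitInterval × OnePoint K))
    (L := CH.of (unitInterval × OnePoint K')) (fun x => (x.1, LC.app p x.2)) H
    (continuous_fst.prodMk ((LC.continuous_app p).comp continuous_snd)) h1,
    fun t => (congrArg (fun z => H (t, z)) (LC.app_infty p)).trans (h2 t), fun y => h3 _,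
    fun y => h4 _⟩

theorem ht_iff {K : LC} {Z : PQ} (g g' : PQ.ofLC K ⟶ Z) : Ht g g' ↔
    ∃ H : PQ.ofLC II ⊗ PQ.ofLC K ⟶ Z,
      (∀ y, PQ.app H (smash ((0 : unitInterval) : OnePoint unitInterval) y) = PQ.app g y) ∧
      ∀ y, PQ.app H (smash ((1 : unitInterval) : OnePoint unitInterval) y) = PQ.app g' y := by
  constructor
  · rintro ⟨H, h1, h2, h3, h4⟩
    let G : OnePoint (II ⊗ K : LC) → OnePoint Z :=
      fun z => z.elim ∞ fun p : unitInterval × K => H (p.1, p.2)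
    have hG : ∀ (t : unitInterval) (y : OnePoint K),
        G (smash (t : OnePoint unitInterval) y) = H (t, y) := fun t y => by
      induction y using OnePoint.rec with
      | infty => exact (h2 t).symm
      | coe y => rfl
    refine ⟨(PQ.μLC II K).hom ≫ ofPl G rfl (Z.plot_surj (K := CH.of (OnePoint (II ⊗ K : LC)))
      (L := CH.of (unitInterval × OnePoint K))
      (fun p => smash (p.1 : OnePoint unitInterval) p.2) G ?_ (fun z => ?_) ?_),
      fun y => (hG 0 y).trans (h3 y), fun y => (hG 1 y).trans (h4 y)⟩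
    · exact LC.continuous_smash.comp ((continuous_coe.comp continuous_fst).prodMk continuous_snd)
    · induction z using OnePoint.rec with
      | infty => exact ⟨(0, ∞), rfl⟩
      | coe z => exact ⟨(z.1, (z.2 : OnePoint K)), rfl⟩
    · exact (funext fun p : unitInterval × OnePoint K => hG p.1 p.2) ▸ h1
  · rintro ⟨H, h1, h2⟩
    exact ⟨fun p => PQ.app H (smash (p.1 : OnePoint unitInterval) p.2), PQ.app_plot H
      (PQ.tensor_plot (PQ.ofLC II) (PQ.ofLC K) (K := CH.of (unitInterval × OnePoint K))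
        (continuous_coe.comp continuous_fst) continuous_snd), fun t => PQ.app_infty H, h1, h2⟩

theorem fn_inc (t : unitInterval) (E : CF) {a : Sp0} (x : OnePoint (E.obj a)) :
    fn (inc t E) x = fn (β_ (I CF) E).hom ((I CF ⊗ E).act (λ_ a).hom
      (tm (fm (A := PQ.ofLC II) (t : OnePoint unitInterval) pu) x)) := by
  have e : fn (StabInput.pt t : 𝟙_ CF ⟶ I CF) onePt =
      fm (A := PQ.ofLC II) (t : OnePoint unitInterval) pu :=
    (congrArg (fn (jC.map (LC.point (X := II) t))) (fn_epsIso_hom pu)).trans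
      (fn_jC_map (LC.point (X := II) t) _ pu)
  rw [inc_def, fn_comp, rightUnitor_inv_fn, fn_act, whiskerLeft_tm, e, fn_act]
  refine Eq.trans ?_ (congrArg _ (braiding_tm _ x).symm)
  rw [← act_comp, braiding_leftUnitor]

theorem Cr.mh {K : LC} {E X : CF} {a : Sp0} {u : PQ.ofLC K ⟶ E.obj a} (h : Cr u) (f g : E ⟶ X) :
    MHtpy f g ↔ Ht (u ≫ ap f a) (u ≫ ap g a) := by
  obtain ⟨v, h1, h2⟩ := h.F (PQ.ofLC II)
  have h3 := h1.iso (β_ (I CF) E)
  have h4 : ∀ (H : E ⊗ I CF ⟶ X) (t : unitInterval) (y : OnePoint K),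
      PQ.app ((v ≫ ap (β_ (I CF) E).hom a) ≫ ap H a) (smash (t : OnePoint unitInterval) y) =
        PQ.app (u ≫ ap (inc t E ≫ H) a) y := fun H t y =>
    congrArg (fn H) ((congrArg (fn (β_ (I CF) E).hom) (h2 _ y)).trans (fn_inc t E _).symm)
  rw [ht_iff]
  constructor
  · rintro ⟨H, rfl, rfl⟩
    exact ⟨_, h4 H 0, h4 H 1⟩
  · rintro ⟨G, h5, h6⟩
    obtain ⟨H, rfl⟩ := (h3 X).2 G
    exact ⟨H, (h X).1 (PQ.hom_ext' fun y => (h4 H 0 y).symm.trans (h5 y)),
      (h X).1 (PQ.hom_ext' fun y => (h4 H 1 y).symm.trans (h6 y))⟩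

end Vale.Agent.P251CP
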